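import Mathlib

namespace Vale.Agent.P209H

open Real
open scoped ContDiff

/-- the area form of the plane -/
def w2 (v w : ℝ × ℝ) : ℝ := v.1 * w.2 - v.2 * w.1

/-- smooth and area preserving at a point -/
def Sp2 (f : ℝ × ℝ → ℝ × ℝ) (z : ℝ × ℝ) : Prop :=
  ContDiffAt ℝ ∞ f z ∧ ∀ v w, w2 (fderiv ℝ f z v) (fderiv ℝ f z w) = w2 v w

theorem Sp2.comp {f g : ℝ × ℝ → ℝ × ℝ} {z : ℝ × ℝ} (hg : Sp2 g (f z)) (hf : Sp2 f z) :
    Sp2 (g ∘ f) z := by
  refine ⟨hg.1.comp z hf.1, fun v w => ?_⟩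
  rw [fderiv_comp z (hg.1.differentiableAt (by simp)) (hf.1.differentiableAt (by simp))]
  simp only [ContinuousLinearMap.comp_apply]
  rw [hg.2, hf.2]

theorem sp2_of {F G : ℝ × ℝ → ℝ} {z : ℝ × ℝ} (hF : ContDiffAt ℝ ∞ F z) (hG : ContDiffAt ℝ ∞ G z)
    {a b c d : ℝ} (ha : HasDerivAt (fun t => F (t, z.2)) a z.1)
    (hb : HasDerivAt (fun t => F (z.1, t)) b z.2) (hc : HasDerivAt (fun t => G (t, z.2)) c z.1)
    (hd : HasDerivAt (fun t => G (z.1, t)) d z.2) (h : a * d - b * c = 1) :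
    Sp2 (fun z => (F z, G z)) z := by
  have key : ∀ {H : ℝ × ℝ → ℝ}, ContDiffAt ℝ ∞ H z → ∀ {p q : ℝ},
      HasDerivAt (fun t => H (t, z.2)) p z.1 → HasDerivAt (fun t => H (z.1, t)) q z.2 →
      ∀ v : ℝ × ℝ, fderiv ℝ H z v = v.1 * p + v.2 * q := by
    intro H hH p q hp hq v
    have hd := (hH.differentiableAt (by simp)).hasFDerivAt
    have e1 : HasDerivAt (fun t : ℝ => (t, z.2)) ((1 : ℝ), (0 : ℝ)) z.1 :=
      (hasDerivAt_id z.1).prodMk (hasDerivAt_const z.1 z.2)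
    have e2 : HasDerivAt (fun t : ℝ => (z.1, t)) ((0 : ℝ), (1 : ℝ)) z.2 :=
      (hasDerivAt_const z.2 z.1).prodMk (hasDerivAt_id z.2)
    have h1 := HasFDerivAt.comp_hasDerivAt (f := fun t : ℝ => (t, z.2)) z.1 hd e1
    have h2 := HasFDerivAt.comp_hasDerivAt (f := fun t : ℝ => (z.1, t)) z.2 hd e2
    have h3 : fderiv ℝ H z (1, 0) = p := h1.unique hp
    have h4 : fderiv ℝ H z (0, 1) = q := h2.unique hq
    have h5 : v = v.1 • ((1 : ℝ), (0 : ℝ)) + v.2 • ((0 : ℝ), (1 : ℝ)) := by ext <;> simp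
    conv_lhs => rw [h5]
    rw [map_add, map_smul, map_smul, h3, h4, smul_eq_mul, smul_eq_mul]
  refine ⟨hF.prodMk hG, fun v w => ?_⟩
  rw [(hF.differentiableAt (by simp)).fderiv_prodMk (hG.differentiableAt (by simp))]
  simp only [w2, ContinuousLinearMap.prod_apply, key hF ha hb, key hG hc hd]
  linear_combination (v.1 * w.2 - v.2 * w.1) * h

/-- vertical shear -/
theorem spV {f g : ℝ → ℝ} (hf : ContDiff ℝ ∞ f) (hg : ContDiff ℝ ∞ g)
    (hd : ∀ x, HasDerivAt f (g x) x) (h0 : ∀ x, g x ≠ 0) (z : ℝ × ℝ) :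
    Sp2 (fun z => (f z.1, z.2 / g z.1)) z := by
  have hg1 := ((hg.differentiable (by simp)) z.1).hasDerivAt
  refine sp2_of (F := fun z => f z.1) (G := fun z => z.2 / g z.1)
    (hf.comp contDiff_fst).contDiffAt
    (contDiff_snd.div (hg.comp contDiff_fst) fun z => h0 z.1).contDiffAt (hd z.1)
    (hasDerivAt_const z.2 (f z.1)) ((hasDerivAt_const z.1 z.2).div hg1 (h0 z.1))
    ((hasDerivAt_id z.2).div_const (g z.1)) ?_
  have := h0 z.1
  field_simp
  ring

/-- horizontal shear -/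
theorem spH {f g : ℝ → ℝ} (hf : ContDiff ℝ ∞ f) (hg : ContDiff ℝ ∞ g)
    (hd : ∀ x, HasDerivAt f (g x) x) (h0 : ∀ x, g x ≠ 0) (z : ℝ × ℝ) :
    Sp2 (fun z => (z.1 / g z.2, f z.2)) z := by
  have hg1 := ((hg.differentiable (by simp)) z.2).hasDerivAt
  refine sp2_of (F := fun z => z.1 / g z.2) (G := fun z => f z.2)
    (contDiff_fst.div (hg.comp contDiff_snd) fun z => h0 z.2).contDiffAt
    (hf.comp contDiff_snd).contDiffAt ((hasDerivAt_id z.1).div_const (g z.2))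
    ((hasDerivAt_const z.2 z.1).div hg1 (h0 z.2)) (hasDerivAt_const z.1 (f z.2)) (hd z.2) ?_
  have := h0 z.2
  field_simp
  ring

theorem inj_of_deriv {f g : ℝ → ℝ} (hd : ∀ x, HasDerivAt f (g x) x) (h0 : ∀ x, 0 < g x) :
    Function.Injective f :=
  (strictMono_of_deriv_pos fun x => by rw [(hd x).deriv]; exact h0 x).injective

theorem injV {f g : ℝ → ℝ} (hd : ∀ x, HasDerivAt f (g x) x) (h0 : ∀ x, 0 < g x) :
    Function.Injective fun z : ℝ × ℝ => (f z.1, z.2 / g z.1) := by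
  intro z w h
  simp only [Prod.mk.injEq] at h
  have h1 := inj_of_deriv hd h0 h.1
  have h2 := h.2
  rw [h1, div_left_inj' (h0 _).ne'] at h2
  exact Prod.ext h1 h2

theorem injH {f g : ℝ → ℝ} (hd : ∀ x, HasDerivAt f (g x) x) (h0 : ∀ x, 0 < g x) :
    Function.Injective fun z : ℝ × ℝ => (z.1 / g z.2, f z.2) := by
  intro z w h
  simp only [Prod.mk.injEq] at h
  have h1 := inj_of_deriv hd h0 h.2
  have h2 := h.1
  rw [h1, div_left_inj' (h0 _).ne'] at h2
  exact Prod.ext h2 h1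

/-- discs into symmetric rectangles -/
theorem diamond {L η : ℝ} (hL : 0 < L) (hη : 0 < η) (hη1 : η ≤ L) : ∃ f : ℝ × ℝ → ℝ × ℝ,
    (∀ z, Sp2 f z) ∧ Function.Injective f ∧ (∀ z, |(f z).2| < 1 / 2) ∧
    ∀ z : ℝ × ℝ, |z.1| ≤ L → 2 * |(f z).1| ≤ π * (z.1 ^ 2 + z.2 ^ 2) + 32 * L * η := by
  set d : ℝ := η ^ 2 / L with hd
  have hd0 : 0 < d := by positivity
  have hdL : d * L = η ^ 2 := by rw [hd]; field_simp
  have hdη : d ≤ η := by
    rw [hd, div_le_iff₀ hL]; nlinarith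
  set A : ℝ → ℝ := fun x => √(x ^ 2 + d ^ 2) with hA
  have hA0 : ∀ x, 0 < A x := fun x => Real.sqrt_pos.2 (by positivity)
  have hA2 : ∀ x, A x ^ 2 = x ^ 2 + d ^ 2 := fun x => Real.sq_sqrt (by positivity)
  have hAc : ContDiff ℝ ∞ A := ContDiff.sqrt (by fun_prop) fun x => by positivity
  have hAd : ∀ x, HasDerivAt A (x / A x) x := by
    intro x
    have h1 : HasDerivAt (fun x : ℝ => x ^ 2 + d ^ 2) (2 * x) x := by
      simpa using (hasDerivAt_pow 2 x).add_const (d ^ 2)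
    have h2 := h1.sqrt (by positivity)
    convert h2 using 1
    have := hA0 x
    simp only [hA] at this ⊢
    field_simp
  set m : ℝ → ℝ := fun x => (A x + x * (x / A x)) / 2 + η with hm
  set M : ℝ → ℝ := fun x => x * A x / 2 + η * x with hM
  have hAx : ∀ x, |x| ≤ A x := fun x => abs_le_of_sq_le_sq' (by nlinarith [hA2 x]) (hA0 x).le |> abs_le.2
  have hAx' : ∀ x, A x ≤ |x| + d := fun x => by
    refine (abs_le_of_sq_le_sq' ?_ (by positivity)).2
    nlinarith [hA2 x, sq_abs x, abs_nonneg x]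
  have hm1 : ∀ x, |x| + η ≤ m x := by
    intro x
    have h1 : 2 * |x| - A x ≤ x * (x / A x) := by
      rw [← mul_div_assoc, le_div_iff₀ (hA0 x)]
      nlinarith [sq_nonneg (A x - |x|), sq_abs x]
    simp only [hm]
    linarith
  have hm2 : ∀ x, m x ≤ |x| + 2 * η := by
    intro x
    have h1 : x * (x / A x) ≤ A x := by
      rw [← mul_div_assoc, div_le_iff₀ (hA0 x)]
      nlinarith [hA2 x]
    simp only [hm]
    linarith [hAx' x]
  have hm0 : ∀ x, 0 < m x := fun x => by linarith [hm1 x, abs_nonneg x]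
  have hmc : ContDiff ℝ ∞ m :=
    ((hAc.add (contDiff_id.mul (contDiff_id.div hAc fun x => (hA0 x).ne'))).div_const 2).add
      contDiff_const
  have hMc : ContDiff ℝ ∞ M :=
    ((contDiff_id.mul hAc).div_const 2).add (contDiff_const.mul contDiff_id)
  have hMd : ∀ x, HasDerivAt (fun x => π * M x) (π * m x) x := by
    intro x
    have h1 := ((((hasDerivAt_id x).mul (hAd x)).div_const 2).add
      ((hasDerivAt_id x).const_mul η)).const_mul π
    refine h1.congr_deriv ?_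
    simp only [hm, id]
    ring
  have hφd : ∀ y : ℝ, HasDerivAt (fun y => arctan (π * y) / π) (1 / (1 + (π * y) ^ 2)) y := by
    intro y
    have h1 := (((hasDerivAt_id y).const_mul π).arctan).div_const π
    refine h1.congr_deriv ?_
    simp only [id]
    field_simp
  have hπ := Real.pi_pos
  have hφ0 : ∀ y : ℝ, 0 < 1 / (1 + (π * y) ^ 2) := fun y => by positivity
  have hπm : ∀ x, 0 < π * m x := fun x => mul_pos hπ (hm0 x)
  refine ⟨(fun z : ℝ × ℝ => (z.1 / (1 / (1 + (π * z.2) ^ 2)), arctan (π * z.2) / π)) ∘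
    fun z : ℝ × ℝ => (π * M z.1, z.2 / (π * m z.1)), fun z => ?_, ?_, fun z => ?_, fun z hz => ?_⟩
  · refine Sp2.comp (spH (f := fun y => arctan (π * y) / π) (g := fun y => 1 / (1 + (π * y) ^ 2))
      ((Real.contDiff_arctan.comp (contDiff_const.mul contDiff_id)).div_const π)
      (contDiff_const.div (by fun_prop) fun y => by positivity) hφd (fun y => (hφ0 y).ne') _)
      (spV (f := fun x => π * M x) (g := fun x => π * m x) (contDiff_const.mul hMc)
        (contDiff_const.mul hmc) hMd (fun x => (hπm x).ne') z)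
  · exact (injH hφd hφ0).comp (injV hMd hπm)
  · simp only [Function.comp]
    rw [abs_div, abs_of_pos hπ, div_lt_iff₀ hπ, abs_lt]
    constructor
    · linarith [Real.neg_pi_div_two_lt_arctan (π * (z.2 / (π * m z.1)))]
    · linarith [Real.arctan_lt_pi_div_two (π * (z.2 / (π * m z.1)))]
  · simp only [Function.comp]
    have h0 := hm0 z.1
    have h1 : π * M z.1 / (1 / (1 + (π * (z.2 / (π * m z.1))) ^ 2)) =
        π * (m z.1 ^ 2 + z.2 ^ 2) * (M z.1 / m z.1 ^ 2) := by field_simp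
    have h2 : 2 * |M z.1| ≤ m z.1 ^ 2 := by
      have a1 : |M z.1| = |z.1| * (A z.1 / 2 + η) := by
        have : M z.1 = z.1 * (A z.1 / 2 + η) := by simp only [hM]; ring
        rw [this, abs_mul, abs_of_pos (by linarith [hA0 z.1] : 0 < A z.1 / 2 + η)]
      have a2 := abs_nonneg z.1
      have a3 : (|z.1| + η) ^ 2 ≤ m z.1 ^ 2 := by gcongr; exact hm1 z.1
      have a4 : |z.1| * A z.1 ≤ |z.1| * (|z.1| + d) := by gcongr; exact hAx' z.1
      have a5 : d * |z.1| ≤ d * L := by gcongr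
      rw [a1]
      nlinarith
    have h3 : 2 * |M z.1 / m z.1 ^ 2| ≤ 1 := by
      rw [abs_div, abs_of_pos (by positivity : 0 < m z.1 ^ 2), ← mul_div_assoc,
        div_le_one (by positivity)]
      exact h2
    have h4 : m z.1 ^ 2 ≤ z.1 ^ 2 + 8 * L * η := by
      have a1 : m z.1 ^ 2 ≤ (|z.1| + 2 * η) ^ 2 := by gcongr; exact hm2 z.1
      have a2 : |z.1| * η ≤ L * η := by gcongr
      have a3 : η * η ≤ L * η := by gcongr
      nlinarith [sq_abs z.1]
    have h5 : 0 ≤ π * (m z.1 ^ 2 + z.2 ^ 2) := by positivity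
    rw [h1, abs_mul, abs_of_nonneg h5]
    have h6 := mul_le_mul_of_nonneg_left h3 h5
    have h7 : π * m z.1 ^ 2 ≤ π * (z.1 ^ 2 + 8 * L * η) := by gcongr
    have h8 : π * (L * η) ≤ 4 * (L * η) := by gcongr; exact Real.pi_le_four
    nlinarith

/-- folding a strip into a half strip -/
theorem fold {δ : ℝ} (hδ : 0 < δ) : ∃ G : ℝ × ℝ → ℝ × ℝ,
    (∀ z : ℝ × ℝ, 0 < z.2 → Sp2 G z) ∧ Set.InjOn G {z | 0 < z.2} ∧
    ∀ z : ℝ × ℝ, 0 < z.2 → |(G z).2| ≤ z.2 ∧ -(δ * log z.2) ≤ (G z).1 ∧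
      (G z).1 ≤ |z.1| - δ * log z.2 := by
  refine ⟨fun z => (δ * (log (cosh (z.1 / δ)) - log z.2), z.2 * (sinh (z.1 / δ) / cosh (z.1 / δ))),
    fun z hz => ?_, fun z hz w hw h => ?_, fun z hz => ⟨?_, ?_, ?_⟩⟩
  · have hc := Real.cosh_pos (z.1 / δ)
    have h1 : HasDerivAt (fun t : ℝ => t / δ) (1 / δ) z.1 := (hasDerivAt_id z.1).div_const δ
    have hcc : ContDiff ℝ ∞ fun z : ℝ × ℝ => cosh (z.1 / δ) :=
      Real.contDiff_cosh.comp (contDiff_fst.div_const δ)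
    have hsc : ContDiff ℝ ∞ fun z : ℝ × ℝ => sinh (z.1 / δ) :=
      Real.contDiff_sinh.comp (contDiff_fst.div_const δ)
    refine sp2_of (F := fun z => δ * (log (cosh (z.1 / δ)) - log z.2))
      (G := fun z => z.2 * (sinh (z.1 / δ) / cosh (z.1 / δ)))
      (contDiffAt_const.mul ((hcc.contDiffAt.log hc.ne').sub (contDiffAt_snd.log hz.ne')))
      (contDiffAt_snd.mul (hsc.contDiffAt.div hcc.contDiffAt hc.ne'))
      (((h1.cosh.log hc.ne').sub_const (log z.2)).const_mul δ)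
      ((((hasDerivAt_id z.2).log hz.ne').const_sub (log (cosh (z.1 / δ)))).const_mul δ)
      ((h1.sinh.div h1.cosh hc.ne').const_mul z.2)
      ((hasDerivAt_id z.2).mul_const (sinh (z.1 / δ) / cosh (z.1 / δ))) ?_
    have h2 := Real.cosh_sq (z.1 / δ)
    have h3 := hz.ne'
    simp only [id]
    field_simp
    nlinarith
  · simp only [Prod.mk.injEq, Set.mem_ofPred_eq] at h hz hw
    have c1 := Real.cosh_pos (z.1 / δ)
    have c2 := Real.cosh_pos (w.1 / δ)
    have h1 := mul_left_cancel₀ hδ.ne' h.1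
    rw [← Real.log_div c1.ne' hz.ne', ← Real.log_div c2.ne' hw.ne'] at h1
    have h2 := Real.log_injOn_pos (Set.mem_Ioi.2 (div_pos c1 hz)) (Set.mem_Ioi.2 (div_pos c2 hw)) h1
    have h3 : sinh (z.1 / δ) = sinh (w.1 / δ) := by
      have a1 : sinh (z.1 / δ) = z.2 * (sinh (z.1 / δ) / cosh (z.1 / δ)) * (cosh (z.1 / δ) / z.2) := by
        field_simp
      have a2 : sinh (w.1 / δ) = w.2 * (sinh (w.1 / δ) / cosh (w.1 / δ)) * (cosh (w.1 / δ) / w.2) := by
        field_simp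
      rw [a1, a2, h.2, h2]
    have h4 := Real.sinh_injective h3
    have h5 : z.1 = w.1 := (div_left_inj' hδ.ne').1 h4
    rw [h4, div_eq_div_iff hz.ne' hw.ne'] at h2
    exact Prod.ext h5 (mul_left_cancel₀ c2.ne' h2).symm
  · have c1 := Real.cosh_pos (z.1 / δ)
    have h1 : |sinh (z.1 / δ) / cosh (z.1 / δ)| ≤ 1 := by
      rw [abs_div, abs_of_pos c1, div_le_one c1]
      exact abs_le.2 (abs_le_of_sq_le_sq' (by nlinarith [Real.cosh_sq (z.1 / δ)]) c1.le)
    simp only []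
    rw [abs_mul, abs_of_pos hz]
    nlinarith
  · have h1 : 0 ≤ log (cosh (z.1 / δ)) := Real.log_nonneg (Real.one_le_cosh _)
    simp only []
    nlinarith
  · have h1 : log (cosh (z.1 / δ)) ≤ |z.1| / δ := by
      rw [Real.log_le_iff_le_exp (Real.cosh_pos _), Real.cosh_eq]
      have a0 : |z.1 / δ| = |z.1| / δ := by rw [abs_div, abs_of_pos hδ]
      have a1 : exp (z.1 / δ) ≤ exp (|z.1| / δ) := Real.exp_le_exp.2 (a0 ▸ le_abs_self _)
      have a2 : exp (-(z.1 / δ)) ≤ exp (|z.1| / δ) := Real.exp_le_exp.2 (a0 ▸ neg_le_abs _)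
      linarith
    rw [le_div_iff₀ hδ] at h1
    simp only []
    nlinarith

/-- Traynor trick in the plane -/
theorem traynor {ρ ε : ℝ} (hρ : 0 < ρ) (hε : 0 < ε) : ∃ f : ℝ × ℝ → ℝ × ℝ,
    (∀ z, Sp2 f z) ∧ Function.Injective f ∧ (∀ z, 0 < (f z).1 ∧ |(f z).2| < 1 / 2) ∧
    ∀ z : ℝ × ℝ, π * (z.1 ^ 2 + z.2 ^ 2) ≤ ρ → (f z).1 < π * (z.1 ^ 2 + z.2 ^ 2) + ε := by
  set L : ℝ := ρ + 1 with hL
  have hL0 : 0 < L := by linarith
  set η : ℝ := min L (ε / (128 * L)) with hη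
  have hη0 : 0 < η := lt_min hL0 (by positivity)
  have hη1 : 32 * L * η ≤ ε / 4 := by
    have h1 : η ≤ ε / (128 * L) := min_le_right _ _
    rw [le_div_iff₀ (by positivity)] at h1
    linarith
  obtain ⟨f, f1, f2, f3, f4⟩ := diamond hL0 hη0 (min_le_left _ _)
  set β : ℝ := ε / (8 * (ρ + ε)) with hβ
  have hβ0 : 0 < β := by positivity
  have hβe : 8 * β * (ρ + ε) = ε := by rw [hβ]; field_simp
  have hβ1 : β ≤ 1 / 8 := by nlinarith
  have hlβ : log β < 0 := Real.log_neg hβ0 (by linarith)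
  set δ : ℝ := ε / 4 / (-log β) with hδ
  have hδ0 : 0 < δ := div_pos (by positivity) (by linarith)
  have hδe : -(δ * log β) = ε / 4 := by
    have : log β ≠ 0 := hlβ.ne
    rw [hδ]; field_simp
  obtain ⟨G, g1, g2, g3⟩ := fold hδ0
  set κ : ℝ := 1 / 2 - β with hκ
  have hκ0 : 0 < κ := by linarith
  have hd : ∀ p : ℝ, HasDerivAt (fun p => β + κ * (p + 1 / 2)) κ p := by
    intro p
    exact ((((hasDerivAt_id p).add_const (1 / 2)).const_mul κ).const_add β).congr_deriv (mul_one κ)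
  set H : ℝ × ℝ → ℝ × ℝ := fun z => (z.1 / κ, β + κ * (z.2 + 1 / 2)) with hH
  have hb : ∀ z, β < (H (f z)).2 ∧ (H (f z)).2 < 1 / 2 := by
    intro z
    obtain ⟨a1, a2⟩ := abs_lt.1 (f3 z)
    simp only [hH]
    constructor <;> nlinarith
  refine ⟨G ∘ H ∘ f, fun z => ?_, fun z w h => ?_, fun z => ?_, fun z hz => ?_⟩
  · refine Sp2.comp (g1 _ (lt_trans hβ0 (hb z).1)) (Sp2.comp ?_ (f1 z))
    exact spH (f := fun p => β + κ * (p + 1 / 2)) (g := fun _ => κ) (by fun_prop) contDiff_const hd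
      (fun _ => hκ0.ne') _
  · have h1 := g2 (lt_trans hβ0 (hb z).1) (lt_trans hβ0 (hb w).1) h
    exact f2 (injH (g := fun _ => κ) hd (fun _ => hκ0) h1)
  · obtain ⟨a1, a2, -⟩ := g3 _ (lt_trans hβ0 (hb z).1)
    have a3 : log (H (f z)).2 < 0 := Real.log_neg (lt_trans hβ0 (hb z).1) (by linarith [(hb z).2])
    have a4 := mul_pos hδ0 (neg_pos.2 a3)
    exact ⟨by simp only [Function.comp]; linarith, lt_of_le_of_lt a1 (hb z).2⟩
  · obtain ⟨-, -, a1⟩ := g3 _ (lt_trans hβ0 (hb z).1)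
    have a2 : log β ≤ log (H (f z)).2 := Real.log_le_log hβ0 (hb z).1.le
    have a3 : δ * log β ≤ δ * log (H (f z)).2 := by gcongr
    have a4 : |z.1| ≤ L := by
      refine abs_le.2 (abs_le_of_sq_le_sq' ?_ hL0.le)
      nlinarith [Real.pi_gt_three, sq_nonneg z.1, sq_nonneg z.2]
    have a5 := f4 z a4
    set s : ℝ := π * (z.1 ^ 2 + z.2 ^ 2) with hs
    have hs0 : 0 ≤ s := by positivity
    have a6 : |(H (f z)).1| ≤ s + ε / 4 + ε / 4 + ε / 8 := by
      simp only [hH]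
      rw [abs_div, abs_of_pos hκ0, div_le_iff₀ hκ0, hκ]
      nlinarith
    simp only [Function.comp]
    linarith

end Vale.Agent.P209H
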